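import Vale.Agent.P210E.Defs
import Vale.Agent.P210U.Loc
import Vale.Agent.P210Y.Path

/-!
# P210E: the calculus of chains; `BL → BLE`
-/

open Filter Topology Set
open scoped ContDiff
open Vale.Agent.P366M Vale.Agent.P366M.Gr Vale.Agent.P366M.Y.C Vale.Agent.P366M.Y.C.GbH
open Vale.Agent.P210G Vale.Agent.P210U

noncomputable section

namespace Vale.Agent.P210E

variable {n : ℕ} {M : Type} {a b c : St n M}

theorem mix_zero (a b : St n M) : mix 0 a b = a := by ext <;> simp [mix]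

theorem mix_one (a b : St n M) : mix 1 a b = b := by ext <;> simp [mix]

theorem Same.rfl' (K : Set M) (a : St n M) : Same K a a := fun _ _ => ⟨rfl, fun _ => rfl⟩

variable {K K' : Set M}

theorem Same.trans (h : Same K a b) (h' : Same K b c) : Same K a c := fun x hx =>
  ⟨(h x hx).1.trans (h' x hx).1, fun i => ((h x hx).2 i).trans ((h' x hx).2 i)⟩

theorem Same.symm (h : Same K a b) : Same K b a := fun x hx =>
  ⟨(h x hx).1.symm, fun i => ((h x hx).2 i).symm⟩

theorem Same.mono (h : Same K a b) (hK : K ⊆ K') : Same K' a b := fun x hx => h x fun q => hx (hK q)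

theorem Same.mix (h : Same K a b) (s : ℝ) : Same K a (mix s a b) := fun x hx =>
  ⟨funext fun i => funext fun j => by simp only [P210E.mix, ← (h x hx).1]; ring,
    fun i => by simp only [P210E.mix, ← (h x hx).2 i]; ring⟩

variable [Mf0 n M] {g g₀ g₁ : Fld n M} {V V' w u : M → ℝ} {x : M} {v v' D : Fin n → M → ℝ}

theorem Same.ev (h : Same K a b) (hK : IsClosed K) (hx : x ∉ K) :
    a.1 =ᶠ[𝓝 x] b.1 ∧ ∀ i, a.2 i =ᶠ[𝓝 x] b.2 i :=
  ⟨eventually_of_mem (hK.isOpen_compl.mem_nhds hx) fun y hy => (h y hy).1,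
    fun i => eventually_of_mem (hK.isOpen_compl.mem_nhds hx) fun y hy => (h y hy).2 i⟩

theorem Same.Rv_eq (h : Same K a b) (hK : IsClosed K) (hx : x ∉ K) :
    Rv a.1 a.2 x = Rv b.1 b.2 x := Rv_of_ev (h.ev hK hx).1 (h.ev hK hx).2

theorem Val.mono (h : Val g₀ K V a) (hK : K' ⊆ K) (hV : ∀ x ∈ K', V' x ≤ V x) : Val g₀ K' V' a :=
  ⟨h.met, h.cc, h.up, fun x hx => (hV x hx).trans (h.le x (hK hx))⟩

theorem Val.base (h : Val g₀ K V a) (hg : Up g₁ g₀) : Val g₁ K V a :=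
  ⟨h.met, h.cc, hg.trans h.up, h.le⟩

theorem Seg.left (h : Seg g₀ K V a b) : Val g₀ K V a := mix_zero a b ▸ h.val 0 (by simp)

theorem Seg.right (h : Seg g₀ K V a b) : Val g₀ K V b := mix_one a b ▸ h.val 1 (by simp)

theorem Reach.refl' (g₀ : Fld n M) (K : Set M) (V : M → ℝ) (a : St n M) : Reach g₀ K V a a :=
  Relation.ReflTransGen.refl

theorem Seg.reach (h : Seg g₀ K V a b) : Reach g₀ K V a b := Relation.ReflTransGen.single h

theorem Reach.trans (h : Reach g₀ K V a b) (h' : Reach g₀ K V b c) : Reach g₀ K V a c :=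
  Relation.ReflTransGen.trans h h'

theorem Reach.same (h : Reach g₀ K V a b) : Same K a b := by
  induction h with
  | refl => exact .rfl' _ _
  | tail _ s ih => exact ih.trans s.same

theorem Reach.val (h : Reach g₀ K V a b) (ha : Val g₀ K V a) : Val g₀ K V b := by
  induction h with
  | refl => exact ha
  | tail _ s _ => exact s.right

/-- the end of a chain is a state above `g₀` -/
theorem Reach.ok (h : Reach g₀ K V a b) (h1 : Met a.1) (h2 : CC ∞ a.2) (h3 : Up g₀ a.1) :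
    Met b.1 ∧ CC ∞ b.2 ∧ Up g₀ b.1 := by
  induction h with
  | refl => exact ⟨h1, h2, h3⟩
  | tail _ s _ => exact ⟨s.right.met, s.right.cc, s.right.up⟩

/-- maps of chains -/
theorem Reach.map {n' : ℕ} {M' : Type} [Mf0 n' M'] {g₀' : Fld n' M'} {K' : Set M'} {V' : M' → ℝ}
    (F : St n M → St n' M') (h : Reach g₀ K V a b)
    (hF : ∀ c d, Seg g₀ K V c d → Seg g₀' K' V' (F c) (F d)) : Reach g₀' K' V' (F a) (F b) := by
  induction h with
  | refl => exact .refl' _ _ _ _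
  | tail _ s ih => exact ih.trans (hF _ _ s).reach

theorem Reach.mono (h : Reach g₀ K V a b) (hV : ∀ x ∈ K, V' x ≤ V x) : Reach g₀ K V' a b :=
  h.map id fun _ _ s => ⟨s.same, fun t ht => (s.val t ht).mono subset_rfl hV⟩

theorem Reach.base (h : Reach g₀ K V a b) (hg : Up g₁ g₀) : Reach g₁ K V a b :=
  h.map id fun _ _ s => ⟨s.same, fun t ht => (s.val t ht).base hg⟩

/-- a chain supported in `K` is a chain supported in a larger set -/
theorem Reach.enl (h : Reach g₀ K V a b) (hK : IsClosed K) (hKK : K ⊆ K')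
    (hV : ∀ x ∈ K, V' x ≤ V x) (ha : ∀ x ∈ K', x ∉ K → V' x ≤ Rv a.1 a.2 x) :
    Reach g₀ K' V' a b := by
  induction h with
  | refl => exact .refl' _ _ _ _
  | tail r s ih =>
    refine ih.trans (Seg.reach ⟨s.same.mono hKK, fun t ht => ⟨(s.val t ht).met, (s.val t ht).cc,
      (s.val t ht).up, fun x hx => ?_⟩⟩)
    by_cases q : x ∈ K
    · exact (hV x q).trans ((s.val t ht).le x q)
    · exact (ha x hx q).trans_eq (((Reach.same r).trans (s.same.mix t)).Rv_eq hK q)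

/-- a change of the drift -/
theorem Seg.drift (h : Val g₀ K V (g, v)) (h' : Val g₀ K V (g, v'))
    (e : ∀ x ∉ K, ∀ i, v i x = v' i x) : Seg g₀ K V (g, v) (g, v') := by
  refine ⟨fun x hx => ⟨rfl, e x hx⟩, fun s hs => ?_⟩
  have e1 : (mix s (g, v) (g, v')).1 = g := by ext x i j; simp only [mix]; ring
  refine ⟨e1.symm ▸ h.met, (CC.smul cd_const h.cc).add (CC.smul cd_const h'.cc), e1.symm ▸ h.up,
    fun x hx => ?_⟩
  rw [e1]
  refine le_trans ?_ (P210Y.Rv_seg h.met h.cc h'.cc hs x)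
  have a1 := mul_le_mul_of_nonneg_left (h.le x hx) (sub_nonneg.2 hs.2)
  have a2 := mul_le_mul_of_nonneg_left (h'.le x hx) hs.1
  linarith

/-- a form which vanishes near `K` can be added to all drifts of a chain -/
theorem Reach.graft (h : Reach g₀ K V a b) (hD : CC ∞ D) (h0 : ∀ x ∈ K, ∀ i, D i =ᶠ[𝓝 x] 0) :
    Reach g₀ K V (a.1, fun i x => a.2 i x + D i x) (b.1, fun i x => b.2 i x + D i x) := by
  refine h.map (fun a : St n M => (a.1, fun i x => a.2 i x + D i x))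
    fun a b s => ⟨fun x hx => ⟨(s.same x hx).1, fun i => by simp only [(s.same x hx).2 i]⟩,
      fun t ht => ?_⟩
  have e : mix t (a.1, fun i x => a.2 i x + D i x) (b.1, fun i x => b.2 i x + D i x) =
      ((mix t a b).1, fun i x => (mix t a b).2 i x + D i x) := by
    ext <;> simp only [mix]; ring
  rw [e]
  exact ⟨(s.val t ht).met, (s.val t ht).cc.add hD, (s.val t ht).up, fun x hx =>
    ((s.val t ht).le x hx).trans_eq (Rv_congr fun i => (h0 x hx i).mono fun y hy => by simp [hy])⟩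

theorem up_gb (g : Fld n M) (w : M → ℝ) : Up g (gb g 1 w) := fun x ξ => by
  have e : ∑ i, ∑ j, gb g 1 w x i j * ξ i * ξ j =
      ∑ i, ∑ j, g x i j * ξ i * ξ j + (∑ i, pd i w x * ξ i) ^ 2 := by
    simp only [gb, sq, Finset.sum_mul_sum, ← Finset.sum_add_distrib, Pi.one_apply]
    exact Finset.sum_congr rfl fun _ _ => Finset.sum_congr rfl fun _ _ => by ring
  rw [e]
  exact le_add_of_nonneg_right (sq_nonneg _)

theorem gn_gb_self (hg : Met g) (w : M → ℝ) (x : M) : gn (gb g 1 w) w x ≤ 1 :=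
  Real.sqrt_le_one.2 (by rw [ip_g_u hg]; exact sub_le_self _ (by positivity))

theorem gn_gb_le (hg : Met g) (w u : M → ℝ) (x : M) : gn (gb g 1 w) u x ≤ gn g u x :=
  Real.sqrt_le_sqrt (ip_g_le hg w u x)

variable {m : ℕ} {l l' : M → ℝ} {G G' : Fin m → M → ℝ} {O : Set M} {p p' C q ε : ℝ} {g' : Fld n M}

theorem Bd.val (h : Bd g v l G O p ε) (hp : p' ≤ p) :
    Val g (K4 G O) (fun x => p' / l x ^ 2) (g, v) :=
  ⟨h.ok.met, h.ok.cc, Up.rfl' g, fun x hx => (div_le_iff₀' (pow_pos (h.ok.l0 x) 2)).2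
    (hp.trans (h.bd x hx).1)⟩

theorem Out.mono (h : Out g v l G O p C q ε g' v' l' G') (hp : p' ≤ p) :
    Out g v l G O p' C q ε g' v' l' G' :=
  ⟨h.rch.mono fun _ _ => div_le_div_of_nonneg_right hp (sq_nonneg _), h.sml, h.l0, h.smG, h.off,
    h.eqG, h.low, fun x hx => ⟨hp.trans (h.bd x hx).1, (h.bd x hx).2⟩⟩

/-- the end points of the chain -/
theorem ble_of {k : ℕ} (h : BL k) : BLE k := by
  obtain ⟨C, hC, c, c0, H⟩ := h
  refine ⟨C, hC, c, c0, fun a a0 η η0 => ?_⟩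
  obtain ⟨ε₀, e0, H⟩ := H a a0 η η0
  refine ⟨ε₀, e0, fun ε h1 h2 M _ g v l G U ok sG hU hK hb => ?_⟩
  obtain ⟨g', v', l', G', o⟩ := H ε h1 h2 M g v l G U ⟨ok, sG, hU, hK, fun x hx => hb x hx.1 hx.2⟩
  obtain ⟨k1, k2, k3⟩ := o.rch.ok ok.met ok.cc (Up.rfl' g)
  refine ⟨g', v', l', G', ⟨k1, k2, o.sml, o.l0⟩, o.smG, fun x hx => ?_, o.eqG, o.low,
    fun x a b => ?_⟩
  · have q : x ∉ K4 G U := fun q => hx.elim (· q.1) fun r => r.not_ge q.2
    exact ⟨(o.rch.same x q).1.symm, fun i => ((o.rch.same x q).2 i).symm, o.off x q⟩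
  · obtain ⟨b1, b2, b3, b4⟩ := o.bd x ⟨a, b⟩
    refine ⟨b1, b3, b4, fun u => ?_⟩
    rw [← mul_assoc]
    exact mul_le_mul b2 (k3.gn_le ok.met k1 u x) (gn_nonneg _ _ _) ((o.l0 x).le.trans b2)

end Vale.Agent.P210E
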