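import Vale.Agent.P210U.Sta
import Vale.Agent.P210G.Gid
import Vale.Agent.P210C.Jet
import Vale.Agent.P210L.Cyl
import Vale.Agent.P366M.Map

/-!
# P210E: the end game (radial lemma `BL`); definitions and statements
-/

open Filter Topology Set
open scoped ContDiff
open Vale.Agent.P366M Vale.Agent.P366M.Gr Vale.Agent.P366M.Y.C
open Vale.Agent.P366D (Rf Sub pull)
open Vale.Agent.P210G Vale.Agent.P210U
open Vale.Agent.P210C (CvG)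
open Vale.Agent.P210L (Vf)
open Fin (last)

noncomputable section

namespace Vale.Agent.P210E

/-- a state: a metric and a drift -/
abbrev St (n : ℕ) (M : Type) := Fld n M × (Fin n → M → ℝ)

section Chains

variable {n : ℕ} {M : Type} [Mf0 n M]

/-- the point `(1 - s) a + s b` of a segment -/
def mix (s : ℝ) (a b : St n M) : St n M :=
  (fun x i j => (1 - s) * a.1 x i j + s * b.1 x i j, fun i x => (1 - s) * a.2 i x + s * b.2 i x)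

/-- a valid state: the metric is above `g₀` and `V ≤ Rv` on `K` -/
structure Val (g₀ : Fld n M) (K : Set M) (V : M → ℝ) (a : St n M) : Prop where
  met : Met a.1
  cc : CC ∞ a.2
  up : Up g₀ a.1
  le : ∀ x ∈ K, V x ≤ Rv a.1 a.2 x

/-- two states agree outside `K` -/
def Same (K : Set M) (a b : St n M) : Prop := ∀ x ∉ K, a.1 x = b.1 x ∧ ∀ i, a.2 i x = b.2 i x

/-- a segment of valid states -/
structure Seg (g₀ : Fld n M) (K : Set M) (V : M → ℝ) (a b : St n M) : Prop where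
  same : Same K a b
  val : ∀ s ∈ Icc (0 : ℝ) 1, Val g₀ K V (mix s a b)

/-- a chain of segments -/
def Reach (g₀ : Fld n M) (K : Set M) (V : M → ℝ) : St n M → St n M → Prop :=
  Relation.ReflTransGen (Seg g₀ K V)

/-! ### the radial lemma -/

variable {m : ℕ}

/-- the compact set on which everything happens -/
def K4 (G : Fin m → M → ℝ) (O : Set M) : Set M := {x ∈ O | nsq G x ≤ 4}

/-- the hypotheses of the radial lemma -/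
structure Bd (g : Fld n M) (v : Fin n → M → ℝ) (l : M → ℝ) (G : Fin m → M → ℝ) (O : Set M)
    (a ε : ℝ) : Prop where
  ok : Ok g v l
  smG : ∀ i, Smooth (G i)
  opn : IsOpen O
  cpt : IsCompact (K4 G O)
  bd : ∀ x ∈ K4 G O, a ≤ l x ^ 2 * Rv g v x ∧ gn g l x ≤ ε ∧ ∀ i, l x * gn g (G i) x ≤ ε

/-- the conclusion of the radial lemma -/
structure Out (g : Fld n M) (v : Fin n → M → ℝ) (l : M → ℝ) (G : Fin m → M → ℝ) (O : Set M)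
    (a C c ε : ℝ) (g' : Fld n M) (v' : Fin n → M → ℝ) (l' : M → ℝ) (G' : Fin m → M → ℝ) :
    Prop where
  rch : Reach g (K4 G O) (fun x => a / l x ^ 2) (g, v) (g', v')
  sml : Smooth l'
  l0 : ∀ x, 0 < l' x
  smG : ∀ i, Smooth (G' i)
  off : ∀ x ∉ K4 G O, l' x = l x
  eqG : ∀ x, x ∉ O ∨ 1 ≤ nsq G x → ∀ i, G' i x = G i x
  low : ∀ x ∈ O, c ≤ nsq G' x
  bd : ∀ x ∈ K4 G O, a ≤ l' x ^ 2 * Rv g' v' x ∧ l' x ≤ C * l x ∧ gn g' l' x ≤ C * ε ∧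
    ∀ i, l' x * gn g' (G' i) x ≤ C * ε

end Chains

/-- **BL**: the radial lemma in dimension `k + 1`, with chains, on an arbitrary manifold -/
def BL (k : ℕ) : Prop := ∃ C ≥ (1 : ℝ), ∃ c > (0 : ℝ), ∀ a > (0 : ℝ), ∀ η > (0 : ℝ),
  ∃ ε₀ > (0 : ℝ), ∀ ε, 0 < ε → ε ≤ ε₀ → ∀ (M : Type) [Mf0 (k + 1) M] (g : Fld (k + 1) M)
  (v : Fin (k + 1) → M → ℝ) (l : M → ℝ) (G : Fin k → M → ℝ) (O : Set M), Bd g v l G O a ε →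
  ∃ g' v' l' G', Out g v l G O (a - η) C c ε g' v' l' G'

/-! ### moves -/

section Move

variable {n : ℕ} {M : Type} [Mf0 n M]

/-- the result of a graph move with the label `h` and the window `T` -/
structure Mv (g : Fld n M) (v : Fin n → M → ℝ) (h : M → ℝ) (Bp Bm K₀ K : Set M) (A η T α : ℝ)
    (w : M → ℝ) (v' : Fin n → M → ℝ) : Prop where
  smw : Smooth w
  rch : Reach g K (fun x => min (Rv g v x) (Rv g v x + h x ^ 2 - 2 * gn g h x) - η) (g, v)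
    (gb g 1 w, v')
  val : Val g K (fun x => min (Rv g v x) (Rv g v x + h x ^ 2 - 2 * gn g h x) - η) (gb g 1 w, v')
  lo : ∀ x ∈ Bp, w x ≤ -T
  hi : ∀ x ∈ Bm, T ≤ w x
  cst : ∃ cp cm : ℝ, (∀ x ∈ Bp, x ∉ K → w x = cp) ∧ ∀ x ∈ Bm, x ∉ K → w x = cm
  same : ∀ x ∈ K₀, ∀ i, v' i =ᶠ[𝓝 x] vg g v w i
  bd : ∀ x ∈ K₀, |hv g v w x| ≤ 2 * A + 1
  eq : ∀ x ∈ K₀, |w x| ≤ T → hv g v w x = h x + α * w x
  gain : ∀ x ∈ K₀, (-T ≤ w x ∧ 0 ≤ h x) ∨ (w x ≤ T ∧ h x ≤ 0) →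
    Rv g v x + h x ^ 2 - 2 * gn g h x - η ≤ Rv (gb g 1 w) v' x

/-- the graph moves on the manifold `M` -/
def Moves (M : Type) [Mf0 n M] : Prop := ∀ (g : Fld n M) (v : Fin n → M → ℝ)
  (Np Nm Bp Bm K₀ K : Set M), Met g → CC ∞ v → IsOpen Np → IsOpen Nm → IsClosed Bp → IsClosed Bm →
  Bp ⊆ Np → Bm ⊆ Nm → IsCompact K → IsClosed K₀ → K₀ ⊆ interior K → K₀ᶜ ⊆ Bp ∪ Bm →
  ∃ A₀ : ℝ, ∀ A ≥ A₀, ∀ h, Smooth h → (∀ x, |h x| ≤ A) → (∀ x ∈ Np, h x = A) →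
    (∀ x ∈ Nm, h x = -A) → ∀ η > (0 : ℝ), ∀ T > (0 : ℝ), ∃ α > (0 : ℝ), α * T ≤ η ∧
      ∃ w v', Mv g v h Bp Bm K₀ K A η T α w v'

end Move

/-- **MOVEc**: graph moves on closed manifolds -/
def MOVEc (n : ℕ) : Prop := ∀ (M : Type) [Mf0 n M] [CompactSpace M], Moves M

/-- **MOVE**: graph moves on arbitrary manifolds -/
def MOVE (n : ℕ) : Prop := ∀ (M : Type) [Mf0 n M], Moves M

/-- **PATH**: a continuous path of metrics, each with some drift, gives a chain -/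
def PATH : Prop := ∀ (n : ℕ) (M : Type) [Mf0 n M] (g₀ : Fld n M) (K : Set M) (V : M → ℝ)
  (γ : ℝ → Fld n M) (β : ℝ → Fin n → M → ℝ), IsCompact K →
  (∀ p ∈ Icc (0 : ℝ) 1, Val g₀ K V (γ p, β p) ∧ Same K (γ 0, β 0) (γ p, β p) ∧
    CvG (𝓝[Icc 0 1] p) p 2 γ) →
  ∀ η > (0 : ℝ), Reach g₀ K (fun x => V x - η) (γ 0, β 0) (γ 1, β 1)

/-- **GRADO**: gradient drifts on compact sets of arbitrary manifolds -/
def GRADO : Prop := ∀ (n : ℕ) (M : Type) [Mf0 n M] (g : Fld n M) (v : Fin n → M → ℝ) (P : M → ℝ)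
  (O K : Set M) (ε : ℝ), 0 < n → Met g → CC ∞ v → Smooth P → IsOpen O → IsCompact K → K ⊆ O →
  0 < ε → (∀ x ∈ O, P x ≤ Rv g v x) → ∃ f, Smooth f ∧ ∀ x ∈ K, P x - ε ≤ Rf g f x

/-- **TRUNC**: the truncation of a label which blows up at two walls -/
def TRUNC : Prop := ∀ (n : ℕ) (M : Type) [Mf0 n M] (g : Fld n M) (h₀ : M → ℝ) (Fp Fm : Set M)
  (h₁ : ℝ), Met g → IsClosed Fp → IsClosed Fm → Disjoint Fp Fm → (∀ x ∉ Fp ∪ Fm, CAt ∞ h₀ x) →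
  (∀ x ∈ Fp, ∀ c, ∀ᶠ y in 𝓝 x, y ∉ Fp → c ≤ h₀ y) →
  (∀ x ∈ Fm, ∀ c, ∀ᶠ y in 𝓝 x, y ∉ Fm → h₀ y ≤ c) →
  (∀ x ∉ Fp ∪ Fm, h₁ ≤ |h₀ x| → gn g h₀ x ≤ h₀ x ^ 2 / 64) → ∀ A > (0 : ℝ), 2 * h₁ ≤ A →
  ∃ h, Smooth h ∧ (∀ x, |h x| ≤ A) ∧ (∀ x ∈ Fp, h x = A) ∧ (∀ x ∈ Fm, h x = -A) ∧
    (∀ x ∈ Fp ∪ Fm, gn g h x = 0) ∧ ∀ x ∉ Fp ∪ Fm, (0 < h x ↔ 0 < h₀ x) ∧
      min (h₀ x ^ 2 - 2 * gn g h₀ x) (A ^ 2 / 8) ≤ h x ^ 2 - 2 * gn g h x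

/-! ### the neck -/

/-- a family of graph moves whose necks lie in an annulus -/
structure Nck {n m : ℕ} {M : Type} [Mf0 n M] (g : Fld n M) (v : Fin n → M → ℝ) (l : M → ℝ)
    (G : Fin m → M → ℝ) (O : Set M) (a : ℝ) (f h : M → ℝ) (u : ℕ → M → ℝ)
    (vs : ℕ → Fin n → M → ℝ) (c e : ℕ → ℝ) (O₀ K₀ : Set M) (Λ : ℝ) : Prop where
  vf : Vf (hyperfilter ℕ) g f h u c e O₀ K₀ Λ
  ann : ∀ x ∈ O₀, x ∈ O ∧ 7 / 16 < nsq G x ∧ nsq G x < 11 / 16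
  pos : ∀ x ∈ O₀, a / l x ^ 2 ≤ Rf g f x + h x ^ 2 - 2 * gn g h x
  rch : ∀ i, Reach g (K4 G O) (fun x => a / l x ^ 2) (g, v) (gb g 1 (u i), vs i)
  same : ∀ i, ∀ x ∈ O₀, ∀ j, vs i j =ᶠ[𝓝 x] vg g (fun j y => -pd j f y) (u i) j
  out : ∀ S, ∀ᶠ i in (hyperfilter ℕ : Filter ℕ), ∀ x, x ∉ O ∨ 1 ≤ nsq G x → S < u i x
  inn : ∀ S, ∀ᶠ i in (hyperfilter ℕ : Filter ℕ), ∀ x ∈ O, nsq G x ≤ 7 / 16 → u i x < -S

/-- **NECK** (from `MOVE n`, `GRADO`, `TRUNC`, `P210L.exists_vf`) -/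
def NECK (n m : ℕ) : Prop := ∀ η > (0 : ℝ), ∃ ε₀ > (0 : ℝ), ∀ a ε, ε ≤ ε₀ →
  ∀ (M : Type) [Mf0 n M] (g : Fld n M) (v : Fin n → M → ℝ) (l : M → ℝ) (G : Fin m → M → ℝ)
    (O : Set M), Bd g v l G O a ε →
    ∃ f h u vs c e O₀ K₀ Λ, Nck g v l G O (a - η) f h u vs c e O₀ K₀ Λ

/-! ### the work on the hypersurface -/

section Hyp

variable {k : ℕ} {Z : Type} [Mf0 (k + 1) Z]

/-- the data on the regular part of the hypersurface: `α` is the last coordinate of the map, `D`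
the other coordinates minus a generic value, `W, w, h` come from `P210H.hardy` -/
structure Zh (γ : Fld (k + 1) Z) (β : Fin (k + 1) → Z → ℝ) (l α : Z → ℝ) (D : Fin k → Z → ℝ)
    (W w h : Z → ℝ) (a ε m l₀ Γ h₁ : ℝ) : Prop where
  ok : Ok γ β l
  smα : Smooth α
  smD : ∀ j, Smooth (D j)
  smW : Smooth W
  smw : Smooth w
  cpt : IsCompact {z | w z ≤ 11 / 8}
  W1 : ∀ z, 1 ≤ W z
  lrg : ∀ z, 4 * w z ≤ W z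
  smh : ∀ z, w z < 1 → CAt ∞ h z
  h0 : ∀ z, w z < 1 → 0 ≤ h z
  low : ∀ z, W z ≤ 2 → h z = 0
  cls : ∀ c, ∃ b < 1, ∀ z, w z < 1 → h z ≤ c → w z ≤ b
  pos : ∀ z, w z < 1 → -1 ≤ (gn γ W z / W z) ^ 2 / 2 + h z ^ 2 - 2 * gn γ h z
  big : ∀ z, w z < 1 → h₁ ≤ h z → gn γ h z ≤ 1 / 64 * h z ^ 2
  far : ∀ z, 1 ≤ w z → 1 ≤ m ^ 2 * nsq D z
  sep : ∀ z, w z ≤ 11 / 8 → 0 < α z → nsq D z ≤ 1 / 16 → 1 / 2 ≤ α z
  bd : ∀ z, w z ≤ 11 / 8 → a / l z ^ 2 + Γ * ((W z - 1) / W z) + (gn γ W z / W z) ^ 2 / 2 ≤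
    Rv γ β z ∧ l₀ ≤ l z ∧ gn γ l z ≤ ε ∧ ∀ j, l z * gn γ (D j) z ≤ ε

/-- the result on the hypersurface: shield move, zoom and the radial lemma -/
structure Zo (γ : Fld (k + 1) Z) (β : Fin (k + 1) → Z → ℝ) (l α : Z → ℝ) (D : Fin k → Z → ℝ)
    (w : Z → ℝ) (a C c ε m : ℝ) (γ' : Fld (k + 1) Z) (β' : Fin (k + 1) → Z → ℝ) (l' : Z → ℝ)
    (E : Fin k → Z → ℝ) : Prop where
  rch : Reach γ {z | w z ≤ 5 / 4} (fun z => a / l z ^ 2) (γ, β) (γ', β')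
  sml : Smooth l'
  l0 : ∀ z, 0 < l' z
  smE : ∀ j, Smooth (E j)
  off : ∀ z, 5 / 4 < w z → l' z = l z / m ∧ ∀ j, E j z = m * D j z
  bd : ∀ z, w z ≤ 11 / 8 → a ≤ l' z ^ 2 * Rv γ' β' z ∧ l' z ≤ C * l z ∧ gn γ' l' z ≤ C * ε ∧
    ∀ j, l' z * gn γ' (E j) z ≤ C * ε
  pos : ∀ z, w z ≤ 11 / 8 → 0 < α z → c ≤ nsq E z
  par : ∀ z, w z ≤ 11 / 8 → α z ≤ 0 ∨ 1 / 64 ≤ nsq D z → ∃ μ ≥ (1 : ℝ), ∀ j, E j z = μ * D j z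

end Hyp

/-- **ZL** (`k = 0`: vacuous by `P210K.base_empty`; `k ≥ 1`: from `MOVE (k + 1)`, `TRUNC`, `BL k`) -/
def ZL (k : ℕ) : Prop := ∃ C ≥ (1 : ℝ), ∃ c > (0 : ℝ), ∀ a > (0 : ℝ), ∀ η > (0 : ℝ),
  ∃ ε₀ > (0 : ℝ), ∀ ε, 0 < ε → ε ≤ ε₀ → ∀ m ≥ (1 : ℝ), ∀ l₀ > (0 : ℝ), ∃ Γ₀ : ℝ, ∀ Γ ≥ Γ₀,
  ∀ (Z : Type) [Mf0 (k + 1) Z] (γ : Fld (k + 1) Z) (β : Fin (k + 1) → Z → ℝ) (l α : Z → ℝ)
    (D : Fin k → Z → ℝ) (W w h : Z → ℝ) (h₁ : ℝ), Zh γ β l α D W w h a ε m l₀ Γ h₁ →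
    ∃ γ' β' l' E, Zo γ β l α D w (a - η) C c ε m γ' β' l' E

/-! ### from the hypersurface to the neck -/

/-- the points of the slabs `{|u i| ≤ S}` near `x` -/
def nk {I X : Type} [TopologicalSpace X] (l : Filter I) (u : I → X → ℝ) (S : ℝ) (x : X) :
    Filter (I × X) := l ×ˢ 𝓝 x ⊓ 𝓟 {p | |u p.1 p.2| ≤ S}

/-- **JET**: the curvature and the gradients on the graphs converge -/
def JET : Prop := ∀ (I : Type) (l : Filter I) (k : ℕ) (X : Type) [Mf0 (k + 1) X] (Z : Type)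
  [Mf0 k Z] (ι : Z → X) (B : Set X) (u : I → X → ℝ) (S : ℝ) (z : Z) (T : Fld (k + 1) X),
  Sub ι B → (∀ i, Smooth (u i)) → Rg l u S ι z → Met T →
  (∀ U, CC ∞ U → Tendsto (fun p : I × X => Rv (gb T 1 (u p.1)) U p.2) (nk l u S (ι z))
    (𝓝 (Rv (pull ι T) (pullC ι U) z))) ∧
  ∀ a, Smooth a → Tendsto (fun p : I × X => gn (gb T 1 (u p.1)) a p.2) (nk l u S (ι z))
    (𝓝 (gn (pull ι T) (fun z => a (ι z)) z))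

/-- **TRANS**: a chain on the hypersurface is spread along the neck -/
def TRANS : Prop := ∀ (I : Type) (l : Filter I) (k : ℕ) (X : Type) [Mf0 (k + 1) X] (Z : Type)
  [Mf0 k Z] (ι : Z → X) (B : Set X) (u : I → X → ℝ) (g : Fld (k + 1) X)
  (Ω : Fin (k + 1) → X → ℝ) (V : X → ℝ) (KU : Set X) (KZ : Set Z) (b : St k Z),
  Sub ι B → (∀ i, Smooth (u i)) → (∀ S > (0 : ℝ), ∀ z, Rg l u S ι z) → Met g → CC ∞ Ω →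
  Continuous V → IsCompact KU → IsCompact (ι ⁻¹' KU) → IsCompact KZ → KZ ⊆ ι ⁻¹' interior KU →
  (∀ S N, IsOpen N → ι ⁻¹' KU ⊆ ι ⁻¹' N → ∀ᶠ i in l, ∀ x ∈ KU, |u i x| ≤ S → x ∈ N) →
  (∀ z, ι z ∈ KU → V (ι z) ≤ Rv (pull ι g) (pullC ι Ω) z) →
  Reach (pull ι g) KZ (fun z => V (ι z)) (pull ι g, pullC ι Ω) b → ∀ η > (0 : ℝ),
  ∃ g₁ Ω₁, Met g₁ ∧ CC ∞ Ω₁ ∧ Same KU (g, Ω) (g₁, Ω₁) ∧ (pull ι g₁, pullC ι Ω₁) = b ∧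
    ∀ S₀, ∃ S₁, ∀ᶠ i in l, ∃ d : St (k + 1) X,
      Reach (gb g 1 (u i)) (KU ∩ {x | |u i x| ≤ S₁}) (fun x => V x - η) (gb g 1 (u i), Ω) d ∧
      ∀ x, |u i x| ≤ S₀ → d.1 =ᶠ[𝓝 x] gb g₁ 1 (u i) ∧ ∀ j, d.2 j =ᶠ[𝓝 x] Ω₁ j

/-- **MIX**: the drift `v` is replaced by `a` along the neck, and `a` by `b` where `W = 1` -/
def MIX : Prop := ∃ L ≥ (1 : ℝ), ∀ η > (0 : ℝ), ∀ S₁ : ℝ, ∃ S₂ ≥ S₁, ∀ (n : ℕ) (M : Type) [Mf0 n M]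
  (γ : Fld n M) (v a b : Fin n → M → ℝ) (u W V : M → ℝ), Met γ → CC ∞ v → CC ∞ a → CC ∞ b →
  Smooth u → Smooth W → (∀ x, 1 ≤ W x) → (∀ x, gn γ u x ≤ 1) →
  (∀ x, |u x| ≤ S₂ → V x + (gn γ W x / W x) ^ 2 / 8 ≤ Rv γ a x) →
  (∀ x, |u x| ≤ S₂ → W x ≤ L → V x + (gn γ W x / W x) ^ 2 / 8 ≤ Rv γ b x) →
  ∃ v', CC ∞ v' ∧ (∀ x, S₂ < |u x| → ∀ i, v' i x = v i x) ∧
    (∀ x, |u x| ≤ S₂ → min (Rv γ v x) (V x) - η ≤ Rv γ v' x) ∧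
    ∀ x, |u x| ≤ S₁ → V x - η ≤ Rv γ v' x ∧ ((∀ᶠ y in 𝓝 x, W y = 1) → ∀ i, v' i =ᶠ[𝓝 x] b i)

/-! ### the new map -/

/-- the linear homotopies `(b, a) → (E, a) → (E, a - 2) → (0, -2)` stay away from the origin -/
def Hom {k : ℕ} (c a : ℝ) (b E : Fin k → ℝ) : Prop := a < 1 ∧ ∀ s ∈ Icc (0 : ℝ) 1,
  c < a ^ 2 + ∑ j, ((1 - s) * b j + s * E j) ^ 2 ∧ c < (a - 2 * s) ^ 2 + ∑ j, E j ^ 2

/-- **HOM1** -/
def HOM1 : Prop := ∀ (k : ℕ) (c a : ℝ) (b b₀ E : Fin k → ℝ), 0 < c → c ≤ 1 / 64 →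
  7 / 16 < a ^ 2 + ∑ j, b j ^ 2 → a ^ 2 + ∑ j, b j ^ 2 < 11 / 16 → ∑ j, b₀ j ^ 2 ≤ 1 / 256 →
  (0 < a → c ≤ ∑ j, E j ^ 2) → (a ≤ 0 ∨ 1 / 64 ≤ ∑ j, (b j - b₀ j) ^ 2 →
    ∃ μ ≥ (1 : ℝ), ∀ j, E j = μ * (b j - b₀ j)) → Hom (c / 2) a b E

/-- **HOM2** -/
def HOM2 : Prop := ∀ (k : ℕ) (X : Type) [TopologicalSpace X] (c : ℝ) (a : X → ℝ)
  (b E : Fin k → X → ℝ) (x : X), Continuous a → (∀ j, Continuous (b j)) → (∀ j, Continuous (E j)) →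
  Hom c (a x) (fun j => b j x) (fun j => E j x) →
  ∀ᶠ y in 𝓝 x, Hom c (a y) (fun j => b j y) fun j => E j y

/-- the estimates on the top plateau of the neck -/
structure Pl {n k : ℕ} {M : Type} [Mf0 n M] (l : M → ℝ) (G : Fin (k + 1) → M → ℝ) (a C c ε B : ℝ)
    (g' : Fld n M) (v' : Fin n → M → ℝ) (l' : M → ℝ) (E : Fin k → M → ℝ) (x : M) : Prop where
  l0 : 0 < l' x
  rv : a ≤ l' x ^ 2 * Rv g' v' x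
  le : l' x ≤ C * l x
  gl : gn g' l' x ≤ C * ε
  gE : ∀ j, l' x * gn g' (E j) x ≤ C * ε
  hom : Hom c (G (last k) x) (fun j => G j.castSucc x) fun j => E j x
  bd : l x ≤ B ∧ l' x ≤ B ∧ ∀ j, |E j x| ≤ B

/-- **FIN**: the new scale and the new map -/
def FIN : Prop := ∃ D : ℝ, ∀ (n k : ℕ) (M : Type) [Mf0 n M] (g g' : Fld n M)
  (v v' : Fin n → M → ℝ) (l l'' u : M → ℝ) (G : Fin (k + 1) → M → ℝ) (E : Fin k → M → ℝ)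
  (O : Set M) (a a' C c ε B ρ : ℝ), Bd g v l G O a ε → 0 ≤ a' → a' ≤ a → 1 ≤ C → c ≤ 1 / 4 →
  Reach g (K4 G O) (fun x => a' / l x ^ 2) (g, v) (g', v') → Smooth l'' → (∀ j, Smooth (E j)) →
  Smooth u → (∀ x, gn g' u x ≤ 1) → 0 < ρ → D * (|B| + 1) ^ 2 ≤ ε * ρ →
  (∀ x, x ∉ O ∨ 1 ≤ nsq G x → 3 * ρ < u x) → (∀ x ∈ O, nsq G x ≤ 7 / 16 → u x < 0) →
  (∀ x, |u x| ≤ 3 * ρ → Pl l G a' C c ε B g' v' l'' E x) →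
  ∃ l' G', Out g v l G O a' (2 * C) c ε g' v' l' G'

end Vale.Agent.P210E
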