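import Vale.Agent.P210E.Plat
import Vale.Agent.P210C.MoveE
import Vale.Agent.P210K.Red
import Vale.Agent.P210L.Za
import Vale.Agent.P210M.Gr
import Vale.Agent.P210U.Neck
import Vale.Agent.P210Y.Mix
import Vale.Agent.P210H.Zl
import Vale.Agent.P210O.Act
import Vale.Agent.P210Z.Fin

/-!
# P210E: the radial lemma
-/

open Vale.Agent.P210U

namespace Vale.Agent.P210E

theorem move {n : ℕ} (hn : 2 ≤ n) : MOVE n := P210K.move_of (P210C.movec hn)

theorem bl_zb (zb : ZB) (k : ℕ) : BL k := by
  induction k with
  | zero => exact P210M.bl_zero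
  | succ k ih =>
    refine step (neck _ _ (by omega) (move (by omega)) P210M.grado) ?_ P210L.za zb P210O.act
      P210Y.mixE P210Z.hom1 P210Z.fin
    cases k with
    | zero => exact P210H.zl_zero
    | succ k => exact P210H.zl (move (by omega)) ih

theorem ble_zb (zb : ZB) (k : ℕ) : BLE k := ble_of (bl_zb zb k)

end Vale.Agent.P210E
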