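import Vale.Agent.P210E.Chain
import Vale.Agent.P210H.Main
import Vale.Agent.P210L.Lev

/-!
# P210E: the data of the induction step and the statements `ZA`, `ZB`
-/

open Filter Topology Set
open scoped ContDiff
open Vale.Agent.P366M Vale.Agent.P366M.Gr Vale.Agent.P366M.Y.C Vale.Agent.P366M.An
open Vale.Agent.P366D (Rf Sub Mc pull)
open Vale.Agent.P210G Vale.Agent.P210U
open Vale.Agent.P210H (Hdy)
open Fin (last)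

noncomputable section

namespace Vale.Agent.P210E

/-- the data of the induction step -/
structure Da (k : ℕ) (X : Type) where
  (g : Fld (k + 2) X) (v : Fin (k + 2) → X → ℝ) (l : X → ℝ) (G : Fin (k + 1) → X → ℝ) (O : Set X)
  (a ε η δ : ℝ) (f h : X → ℝ) (u : ℕ → X → ℝ) (vs : ℕ → Fin (k + 2) → X → ℝ) (c e : ℕ → ℝ)
  (O₀ K₀ : Set X) (Λ : ℝ) (S C₁ C₂ : Set X) (b₀ : Fin k → ℝ) (B Γ m l₀ L t₁ t₂ : ℝ)
  (W₁ w₁ h₁ W₂ w₂ h₂ : X → ℝ)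

variable {k : ℕ} {X : Type} [Mf0 (k + 2) X]

namespace Da

variable (d : Da k X)

/-- the limit hypersurface -/
def A : Set X := La (hyperfilter ℕ) d.u

/-- the first coordinates of the map minus the generic value -/
def D (j : Fin k) (x : X) : ℝ := d.G j.castSucc x - d.b₀ j

/-- the metrics of the graphs -/
def gi (i : ℕ) : Fld (k + 2) X := gb d.g 1 (d.u i)

/-- the drift with the new weight `L` and the two Hardy weights -/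
def Om (L : X → ℝ) : Fin (k + 2) → X → ℝ := fun i y => -pd i d.f y + -pd i L y +
  -1 * pd i (fun z => 1 / 2 * Real.log (d.W₁ z) + 1 / 4 * Real.log (d.W₂ z)) y

/-- the lower bound with the gain near the singular set -/
def VA (x : X) : ℝ := (d.a - 2 * d.η) / d.l x ^ 2 + d.Γ * ((d.W₁ x - 1) / d.W₁ x)

/-- the lower bound along the transplanted chain -/
def VT (x : X) : ℝ := (d.a - 3 * d.η) / d.l x ^ 2 - d.δ

/-- the properties of the data -/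
structure Ok : Prop where
  bd : Bd d.g d.v d.l d.G d.O d.a d.ε
  nck : Nck d.g d.v d.l d.G d.O (d.a - d.η) d.f d.h d.u d.vs d.c d.e d.O₀ d.K₀ d.Λ
  cS : IsClosed d.S
  sA : d.S ⊆ d.A
  H₁ : Hdy d.g d.S d.C₁ d.B d.Γ d.δ (1 / 64) 4 d.t₁ d.W₁ d.w₁ d.h₁
  H₂ : Hdy d.g d.S d.C₂ d.B 0 d.δ 1 d.L d.t₂ d.W₂ d.w₂ d.h₂
  s₁ : ∀ x ∈ d.C₁, 1 ≤ d.m ^ 2 * nsq d.D x
  s₂ : ∀ x ∈ d.C₂, 3 / 2 < d.w₁ x
  B0 : 0 ≤ d.B
  fB : ∀ x ∈ d.K₀, |d.Λ| + gn d.g d.f x ≤ d.B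
  ε0 : 0 < d.ε
  η0 : 0 < d.η
  δ0 : 0 < d.δ
  δ1 : d.δ ≤ 1
  δl : ∀ x ∈ K4 d.G d.O, 4 * d.δ ≤ d.η / d.l x ^ 2
  b0 : ∑ j, d.b₀ j ^ 2 ≤ 1 / 256
  l0 : ∀ x ∈ K4 d.G d.O, d.l₀ ≤ d.l x
  m1 : 1 ≤ d.m
  Γ0 : 0 ≤ d.Γ

/-- the regular part of the limit -/
structure Reg {Z : Type} [Mf0 (k + 1) Z] (ι : Z → X) : Prop where
  sub : Sub ι (d.A \ d.S)
  mc : Mc d.g ι d.B
  rg : ∀ S > (0 : ℝ), ∀ z, Rg (hyperfilter ℕ : Filter ℕ) d.u S ι z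

/-- the drift `Om L` is good on the graphs, away from the singular set -/
def Gd (L : X → ℝ) : Prop := ∀ S, ∀ᶠ i in (hyperfilter ℕ : Filter ℕ), ∀ x, |d.u i x| ≤ S →
  d.w₂ x ≤ 1 → d.VA x + (gn (d.gi i) d.W₂ x / d.W₂ x) ^ 2 / 8 ≤ Rv (d.gi i) (d.Om L) x

/-- the hypotheses of `ZL` -/
def Zhy {Z : Type} [Mf0 (k + 1) Z] (ι : Z → X) (L : X → ℝ) : Prop :=
  Zh (pull ι d.g) (pullC ι (d.Om L)) (fun z => d.l (ι z)) (fun z => d.G (last k) (ι z))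
    (fun j z => d.D j (ι z)) (fun z => d.W₁ (ι z)) (fun z => d.w₁ (ι z)) (fun z => d.h₁ (ι z))
    (d.a - 2 * d.η) d.ε d.m d.l₀ d.Γ d.t₁

/-- the transplanted chain and the extensions of the new scale and of the new map -/
structure Tr (L : X → ℝ) (C c : ℝ) (l' : X → ℝ) (E : Fin k → X → ℝ) : Prop where
  sml : Smooth l'
  smE : ∀ j, Smooth (E j)
  off : ∀ x, 11 / 8 ≤ d.w₁ x → (l' =ᶠ[𝓝 x] fun y => d.l y / d.m) ∧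
    ∀ j, E j =ᶠ[𝓝 x] fun y => d.m * d.D j y
  tr : ∀ B, (∀ x ∈ d.K₀, d.l x ≤ B ∧ l' x ≤ B ∧ ∀ j, |E j x| ≤ B) → ∀ S₀, ∃ S ≥ S₀,
    ∀ᶠ i in (hyperfilter ℕ : Filter ℕ), ∀ v, CC ∞ v →
      (∀ x, d.w₁ x < 11 / 8 → |d.u i x| ≤ S → ∀ j, v j x = d.Om L j x) →
      (∀ x ∈ K4 d.G d.O, d.VT x ≤ Rv (d.gi i) v x) →
      ∃ s : St (k + 2) X, Reach (d.gi i) (K4 d.G d.O) d.VT (d.gi i, v) s ∧ ∀ x, |d.u i x| ≤ S₀ →
        (d.w₁ x < 11 / 8 → Pl d.l d.G (d.a - 4 * d.η) C c d.ε B s.1 s.2 l' E x) ∧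
        (11 / 8 ≤ d.w₁ x → s.1 =ᶠ[𝓝 x] d.gi i ∧ ∀ j, s.2 j =ᶠ[𝓝 x] v j)

end Da

/-- **ZA**: the state on the hypersurface (`Vf.state` on `{w₂ ≤ 1} ∪ {w₁ ≤ 11 / 8}`, extension `L`
of the cut-off weight, `Rv_hardy` on `Z`, `jet`) -/
def ZA : Prop := ∀ (k : ℕ) (X : Type) [Mf0 (k + 2) X] (d : Da k X) (Z : Type) [Mf0 (k + 1) Z]
  (ι : Z → X), d.Ok → d.Reg ι → ∃ L, Smooth L ∧ d.Zhy ι L ∧ d.Gd L

/-- **ZB**: the result on the hypersurface is transplanted (`P210J.trans`, `ext`, `jet`, `HOM1`,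
`HOM2`) -/
def ZB : Prop := ∀ (k : ℕ) (X : Type) [Mf0 (k + 2) X] (d : Da k X) (Z : Type) [Mf0 (k + 1) Z]
  (ι : Z → X) (L : X → ℝ) (C c : ℝ) (γ : Fld (k + 1) Z) (β : Fin (k + 1) → Z → ℝ) (l' : Z → ℝ)
  (E : Fin k → Z → ℝ), d.Ok → d.Reg ι → Smooth L → d.Zhy ι L → 0 < c → c ≤ 1 / 64 →
  Zo (pull ι d.g) (pullC ι (d.Om L)) (fun z => d.l (ι z)) (fun z => d.G (last k) (ι z))
    (fun j z => d.D j (ι z)) (fun z => d.w₁ (ι z)) (d.a - 3 * d.η) C c d.ε d.m γ β l' E →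
  ∃ l'' E', d.Tr L (C + 1) (c / 2) l'' E'

end Vale.Agent.P210E
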