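import Vale.Agent.P210E.All
import Vale.Agent.P210J.Zb
import Vale.Agent.P210U.Main

/-!
# P210E: the radial lemma holds in all dimensions
-/

open Vale.Agent.P210U

namespace Vale.Agent.P210E

theorem bl (k : ℕ) : BL k := bl_zb P210J.zb k

theorem ble (k : ℕ) : BLE k := ble_zb P210J.zb k

theorem q1_st (h : ∀ n, 3 ≤ n → ST1 n) : P210B.Q1 := q1_of h fun m _ => ble m

end Vale.Agent.P210E
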