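import Vale.Agent.P210E.Zs
import Vale.Agent.P210X.Sta
import Vale.Agent.P210T.Gp

/-!
# P210E: the plateau of the neck and the induction step
-/

open Filter Topology Set
open scoped ContDiff
open Vale.Agent.P366M Vale.Agent.P366M.Gr Vale.Agent.P366M.Y.C Vale.Agent.P366M.An
open Vale.Agent.P366D (Rf Sub Mc pull Null)
open Vale.Agent.P210G Vale.Agent.P210U
open Vale.Agent.P210H (Hdy hardy)
open Vale.Agent.P210X (ACT lg)
open Fin (last)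

noncomputable section

namespace Vale.Agent.P210E

variable {k : ℕ} {X : Type} [Mf0 (k + 2) X] {d : Da k X} {L l' : X → ℝ} {E : Fin k → X → ℝ}
  {C c : ℝ} {x : X}

namespace Da.Ok

variable (H : d.Ok)
include H

theorem k4 (hx : x ∈ d.K₀) : x ∈ K4 d.G d.O :=
  have a := H.nck.ann x (H.nck.vf.sub hx)
  ⟨a.1, by linarith [a.2.2]⟩

theorem smD (j : Fin k) : Smooth (d.D j) := CD.sub (H.bd.smG _) cd_const

theorem ccOm (hL : Smooth L) : CC ∞ (d.Om L) :=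
  ((H.nck.vf.smf.cc_pd.neg).add hL.cc_pd.neg).add (CC.smul cd_const (Smooth.cc_pd (CD.add
    (CD.mul cd_const (CD.log H.H₁.smW fun x => (zero_lt_one.trans_le (H.H₁.W1 x)).ne'))
    (CD.mul cd_const (CD.log H.H₂.smW fun x => (zero_lt_one.trans_le (H.H₂.W1 x)).ne')))))

/-- the case of an empty regular part -/
theorem empty (h : d.A ⊆ d.S) (C c : ℝ) : d.Gd (fun _ => 0) ∧
    d.Tr (fun _ => 0) C c (fun y => d.l y / d.m) fun j y => d.m * d.D j y := by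
  have F := H.nck.vf
  refine ⟨fun S => (F.conc S (isOpen_lt continuous_const H.H₂.smw.cont) fun x hx =>
    one_lt_two.trans_le (H.H₂.inn x (h hx))).mono fun i hi x a b => absurd (hi x a) b.not_gt,
    CD.div_const H.bd.ok.sml _, fun j => CD.mul cd_const (H.smD j),
    fun x _ => ⟨.rfl, fun _ => .rfl⟩, fun B _ S₀ => ⟨S₀, le_rfl,
      (F.conc S₀ (isOpen_lt (continuous_const (y := (11 / 8 : ℝ))) H.H₁.smw.cont) fun x hx =>
        lt_of_lt_of_le (by norm_num) (H.H₁.inn x (h hx))).mono fun i hi v _ _ _ =>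
        ⟨_, .refl' _ _ _ _, fun x a => ⟨fun b => absurd (hi x a) b.not_gt,
          fun _ => ⟨.rfl, fun _ => .rfl⟩⟩⟩⟩⟩

theorem va_ge (x : X) : (d.a - 2 * d.η) / d.l x ^ 2 ≤ d.VA x :=
  le_add_of_nonneg_right (mul_nonneg H.Γ0 (div_nonneg (sub_nonneg.2 (H.H₁.W1 x))
    (zero_le_one.trans (H.H₁.W1 x))))

/-- the plateau near the singular set -/
theorem pl_sing (h₁ : HOM1) (T : d.Tr L C (c / 2) l' E) (C1 : 1 ≤ C) (c0 : 0 < c) (c1 : c ≤ 1 / 64)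
    (a0 : 2 * d.η ≤ d.a) (l0 : 0 < d.l₀) (hΓ : d.a * d.m ^ 2 / d.l₀ ^ 2 + d.δ ≤ d.Γ / 2) {B : ℝ}
    (hB : d.l x ≤ B ∧ l' x ≤ B ∧ ∀ j, |E j x| ≤ B) (hx : x ∈ d.K₀) (hw : 11 / 8 ≤ d.w₁ x) {i : ℕ}
    {g' : Fld (k + 2) X} {v' : Fin (k + 2) → X → ℝ} (e : g' x = d.gi i x)
    (hR : d.VA x - d.δ ≤ Rv g' v' x) : Pl d.l d.G (d.a - 4 * d.η) C (c / 2) d.ε B g' v' l' E x := by
  obtain ⟨e1, e2⟩ := T.off x hw
  obtain ⟨-, b1, b2⟩ := H.bd.bd x (H.k4 hx)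
  have m1 := H.m1
  have m0 : 0 < d.m := by linarith
  have l1 := H.bd.ok.l0 x
  have ε0 := H.ε0
  have η0 := H.η0
  have hg := H.bd.ok.met
  have q : ∀ u, gn g' u x ≤ gn d.g u x := fun u => (gn_of_eq e u).trans_le (gn_gb_le hg _ u x)
  have cε : d.ε ≤ C * d.ε := le_mul_of_one_le_left ε0.le C1
  have e1' : l' x = d.l x / d.m := e1.self_of_nhds
  have an := H.nck.ann x (H.nck.vf.sub hx)
  refine ⟨e1' ▸ div_pos l1 m0, ?_, ?_, ?_, fun j => ?_, ?_, hB⟩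
  · have W1 := H.H₁.lrg x
    have w1 : 1 / 2 ≤ (d.W₁ x - 1) / d.W₁ x := by rw [le_div_iff₀ (by linarith)]; linarith
    have w2 := mul_le_mul_of_nonneg_left w1 H.Γ0
    have w3 : 0 ≤ (d.a - 2 * d.η) / d.l x ^ 2 := div_nonneg (by linarith) (sq_nonneg _)
    have w4 : d.a * d.m ^ 2 / d.l x ^ 2 ≤ d.a * d.m ^ 2 / d.l₀ ^ 2 :=
      div_le_div_of_nonneg_left (mul_nonneg (by linarith) (sq_nonneg _)) (by positivity)
        (pow_le_pow_left₀ l0.le (H.l0 x (H.k4 hx)) 2)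
    have w5 : d.a * d.m ^ 2 / d.l x ^ 2 ≤ Rv g' v' x := by
      rw [Da.VA] at hR
      linarith
    rw [div_le_iff₀ (by positivity)] at w5
    rw [e1', div_pow, div_mul_eq_mul_div, le_div_iff₀ (by positivity)]
    nlinarith [mul_pos η0 (pow_pos m0 2)]
  · rw [e1']
    exact (div_le_self l1.le m1).trans (le_mul_of_one_le_left l1.le C1)
  · refine (q _).trans (le_trans ?_ cε)
    rw [gn_congr e1, gn_of_pd (u' := d.l) (s := d.m⁻¹) fun j => by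
      simp only [div_eq_inv_mul, pd_const_mul], abs_of_pos (inv_pos.2 m0)]
    exact (mul_le_of_le_one_left (gn_nonneg _ _ _) (inv_le_one_of_one_le₀ m1)).trans b1
  · refine (mul_le_mul_of_nonneg_left (q _) (e1' ▸ (div_pos l1 m0).le)).trans
      (le_trans (le_of_eq ?_) ((b2 j.castSucc).trans cε))
    rw [gn_congr (e2 j), gn_of_pd (u' := d.G j.castSucc) (s := d.m) fun a => by
      rw [pd_const_mul]
      exact congrArg _ ((pd_sub ((H.bd.smG _).diff x) (dAt_const _) a).trans (by simp [pd_const])),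
      abs_of_pos m0, e1', ← mul_assoc, div_mul_cancel₀ _ m0.ne']
  · have e3 : ∀ j, E j x = d.m * d.D j x := fun j => (e2 j).self_of_nhds
    have e4 : nsq d.G x = d.G (last k) x ^ 2 + ∑ j : Fin k, d.G j.castSucc x ^ 2 := by
      rw [nsq, Fin.sum_univ_castSucc, add_comm]
    refine h₁ k c _ _ d.b₀ _ c0 c1 (e4 ▸ an.2.1) (e4 ▸ an.2.2) H.b0 (fun _ => ?_)
      fun _ => ⟨d.m, m1, e3⟩
    have := H.s₁ x (by_contra fun r => by linarith [(H.H₁.out x r).2.1])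
    simp only [e3, mul_pow, ← Finset.mul_sum]
    exact (c1.trans (by norm_num)).trans this

/-- **the plateau** -/
theorem plat (h₁ : HOM1) (hL : Smooth L) (gd : d.Gd L) (T : d.Tr L C (c / 2) l' E) (C1 : 1 ≤ C)
    (c0 : 0 < c) (c1 : c ≤ 1 / 64) (a0 : 2 * d.η ≤ d.a) (l0 : 0 < d.l₀) (L0 : 0 < d.L)
    (hΓ : d.a * d.m ^ 2 / d.l₀ ^ 2 + d.δ ≤ d.Γ / 2) {A : ℕ → Fin (k + 2) → X → ℝ}
    (cA : ∀ i, CC ∞ (A i)) (hA : ∀ S, ∀ᶠ i in (hyperfilter ℕ : Filter ℕ), ∀ x, |d.u i x| ≤ S →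
      d.VA x + (gn (d.gi i) d.W₂ x / d.W₂ x) ^ 2 / 8 ≤ Rv (d.gi i) (A i) x)
    (mx : ∀ S₁ : ℝ, ∃ S₂ ≥ S₁, ∀ (γ : Fld (k + 2) X) (v a b : Fin (k + 2) → X → ℝ) (u W V : X → ℝ),
      Met γ → CC ∞ v → CC ∞ a → CC ∞ b → Smooth u → Smooth W → (∀ x, 1 ≤ W x) →
      (∀ x, gn γ u x ≤ 1) → (∀ x, |u x| ≤ S₂ → V x + (gn γ W x / W x) ^ 2 / 8 ≤ Rv γ a x) →
      (∀ x, |u x| ≤ S₂ → W x ≤ d.L → V x + (gn γ W x / W x) ^ 2 / 8 ≤ Rv γ b x) →
      ∃ v', CC ∞ v' ∧ (∀ x, S₂ < |u x| → ∀ i, v' i x = v i x) ∧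
        (∀ x, |u x| ≤ S₂ → min (Rv γ v x) (V x) - d.δ ≤ Rv γ v' x) ∧ ∀ x, |u x| ≤ S₁ →
          V x - d.δ ≤ Rv γ v' x ∧ ((∀ᶠ y in 𝓝 x, W y = 1) → ∀ i, v' i =ᶠ[𝓝 x] b i)) :
    ∃ B, ∀ S₀, ∀ᶠ i in (hyperfilter ℕ : Filter ℕ), ∃ g' v',
      Reach d.g (K4 d.G d.O) (fun x => (d.a - 4 * d.η) / d.l x ^ 2) (d.g, d.v) (g', v') ∧
      (∀ x, gn g' (d.u i) x ≤ 1) ∧
      ∀ x, |d.u i x| ≤ S₀ → Pl d.l d.G (d.a - 4 * d.η) C (c / 2) d.ε B g' v' l' E x := by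
  have F := H.nck.vf
  have hg := H.bd.ok.met
  have η0 := H.η0
  have δ0 := H.δ0
  obtain ⟨B, hB⟩ := F.cpt.bddAbove_image (f := fun x => |d.l x| + |l' x| + ∑ j, |E j x|)
    ((H.bd.ok.sml.cont.abs.add T.sml.cont.abs).add
      (continuous_finsetSum _ fun j _ => (T.smE j).cont.abs)).continuousOn
  have hB' : ∀ x ∈ d.K₀, d.l x ≤ B ∧ l' x ≤ B ∧ ∀ j, |E j x| ≤ B := fun x hx => by
    have a : |d.l x| + |l' x| + ∑ j, |E j x| ≤ B := hB ⟨x, hx, rfl⟩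
    have b : 0 ≤ ∑ j, |E j x| := Finset.sum_nonneg fun _ _ => abs_nonneg _
    refine ⟨by linarith [le_abs_self (d.l x), abs_nonneg (l' x)],
      by linarith [le_abs_self (l' x), abs_nonneg (d.l x)], fun j => ?_⟩
    linarith [Finset.single_le_sum (f := fun j => |E j x|) (fun _ _ => abs_nonneg _)
      (Finset.mem_univ j), abs_nonneg (l' x), abs_nonneg (d.l x)]
  have mn : ∀ {p q : ℝ} x, p ≤ q → p / d.l x ^ 2 ≤ q / d.l x ^ 2 := fun x h =>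
    div_le_div_of_nonneg_right h (sq_nonneg _)
  refine ⟨B, fun S₀ => ?_⟩
  obtain ⟨S, hS, tr⟩ := T.tr B hB' S₀
  obtain ⟨S₂, hS₂, mx⟩ := mx S
  filter_upwards [tr, hA S₂, gd S₂, F.cf S₂] with i tr hA gd cf
  have gi : Met (d.gi i) := met_g hg (F.smu i)
  have v0 := (H.nck.rch i).val (H.bd.val (by linarith))
  obtain ⟨v', c', e', b1, b2⟩ := mx (d.gi i) (d.vs i) (A i) (d.Om L) (d.u i) d.W₂ d.VA gi v0.cc (cA i)
    (H.ccOm hL) (F.smu i) H.H₂.smW H.H₂.W1 (gn_gb_self hg _) hA fun x a b => gd x a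
      (le_of_mul_le_mul_left (((H.H₂.lrg x).trans b).trans_eq (mul_one _).symm) L0)
  have vt : ∀ x ∈ K4 d.G d.O, d.VT x ≤ Rv (d.gi i) v' x := fun x hx => by
    have a : (d.a - d.η) / d.l x ^ 2 ≤ Rv (d.gi i) (d.vs i) x := v0.le x hx
    have a' := mn x (show d.a - 3 * d.η ≤ d.a - d.η by linarith)
    rcases le_or_gt |d.u i x| S₂ with q | q
    · refine le_trans (sub_le_sub_right (le_min (a'.trans a) ?_) _) (b1 x q)
      exact (mn x (by linarith)).trans (H.va_ge x)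
    · rw [Rv_congr (v' := d.vs i) fun j => (continuous_const.continuousAt.eventually_lt
        (F.smu i).cont.abs.continuousAt q).mono fun y hy => e' y hy j, Da.VT]
      linarith
  have lo : ∀ x ∈ K4 d.G d.O, (d.a - 4 * d.η) / d.l x ^ 2 ≤ d.VT x := fun x hx => by
    have := H.δl x hx
    rw [Da.VT, show d.a - 4 * d.η = d.a - 3 * d.η - d.η by ring, sub_div]
    linarith
  obtain ⟨s, r, p⟩ := tr v' c' (fun x a b j => ((b2 x b).2 (eventually_of_mem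
    (H.H₂.cpt.isClosed.isOpen_compl.mem_nhds fun q => by linarith [H.s₂ x q])
    fun y hy => (H.H₂.out y hy).1) j).self_of_nhds) vt
  obtain ⟨k1, -, k3⟩ := r.ok gi c' (Up.rfl' _)
  refine ⟨s.1, s.2, (((H.nck.rch i).mono fun x _ => mn x (by linarith)).trans (Seg.drift
    (v0.mono subset_rfl fun x _ => mn x (by linarith))
    ⟨gi, c', up_gb _ _, fun x hx => (lo x hx).trans (vt x hx)⟩ fun x hx j =>
      (e' x (not_le.1 fun q => hx (H.k4 (cf x q))) j).symm).reach).trans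
    ((r.base (up_gb _ _)).mono lo), fun x => (k3.gn_le gi k1 _ x).trans (gn_gb_self hg _ x),
    fun x hx => ?_⟩
  rcases lt_or_ge (d.w₁ x) (11 / 8) with q | q
  · exact (p x hx).1 q
  · obtain ⟨e1, e2⟩ := (p x hx).2 q
    have xK := cf x (hx.trans (hS.trans hS₂))
    exact H.pl_sing h₁ T C1 c0 c1 a0 l0 hΓ (hB' x xK) xK q e1.self_of_nhds
      ((b2 x (hx.trans hS)).1.trans_eq (Rv_of_ev e1 e2).symm)

end Da.Ok

/-- **STEP** -/
theorem step {k : ℕ} (hN : NECK (k + 2) (k + 1)) (hZ : ZL k) (za : ZA) (zb : ZB) (act : ACT)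
    (mx : MIX) (h₁ : HOM1) (fin : FIN) : BL (k + 1) := by
  obtain ⟨C, C1, c, c0, hZ⟩ := hZ
  obtain ⟨L₀, L1, mx⟩ := mx
  obtain ⟨D, fin⟩ := fin
  have c2 : 0 < min c (1 / 64) := lt_min c0 (by norm_num)
  refine ⟨2 * (C + 1), by linarith, min c (1 / 64) / 2, half_pos c2, fun a a0 η η0 => ?_⟩
  obtain ⟨θ, θ0, θ1, θ2⟩ : ∃ θ > (0 : ℝ), 4 * θ ≤ η ∧ 4 * θ ≤ a :=
    ⟨min η a / 4, by positivity, by linarith [min_le_left η a], by linarith [min_le_right η a]⟩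
  obtain ⟨ε₁, e1, hN⟩ := hN θ θ0
  obtain ⟨ε₂, e2, hZ⟩ := hZ (a - 2 * θ) (by linarith) θ θ0
  refine ⟨min ε₁ ε₂, lt_min e1 e2, fun ε ε0 hε X _ g v l G O bd => ?_⟩
  obtain ⟨f, h, u, vs, c', e, O₀, K₀, Λ, N⟩ := hN a ε (hε.trans (min_le_left _ _)) X g v l G O bd
  have F := N.vf
  have hg := bd.ok.met
  have cl := bd.ok.sml.cont.continuousOn (s := K4 G O)
  obtain ⟨S, cS, sA, nul, reg⟩ := F.cyl
  have kS := F.cpt_la.of_isClosed_subset cS sA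
  obtain ⟨Λ', reg⟩ : ∃ Λ', (La (hyperfilter ℕ) u \ S).Nonempty → ∃ (Z : Type) (_ : Mf0 (k + 1) Z)
      (ι : Z → X), Sub ι (La (hyperfilter ℕ) u \ S) ∧ Mc g ι Λ' ∧
        ∀ T > (0 : ℝ), ∀ z, Rg (hyperfilter ℕ : Filter ℕ) u T ι z := by
    by_cases q : (La (hyperfilter ℕ) u \ S).Nonempty
    · obtain ⟨Z, _, ι, Λ', r⟩ := reg q
      exact ⟨Λ', fun _ => ⟨Z, inferInstance, ι, r⟩⟩
    · exact ⟨0, fun r => absurd r q⟩
  obtain ⟨B₀, act⟩ := act _ X ℕ _ g f h u c' e O₀ K₀ Λ _ F N.pos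
  obtain ⟨B₁, hB₁⟩ := F.cpt.bddAbove_image (f := fun x => |Λ| + gn g f x)
    (continuous_const.add (hg.cont_gn F.smf.one)).continuousOn
  obtain ⟨B, B0, b0, b1, b2⟩ : ∃ B ≥ (0 : ℝ), B₀ ≤ B ∧ B₁ ≤ B ∧ Λ' ≤ B :=
    ⟨max (max 0 B₀) (max B₁ Λ'), by simp, by simp, by simp, by simp⟩
  obtain ⟨b₀, g1, δ₀, δ0, g2⟩ := P210T.gp' (m := k) (by push_cast; linarith) kS nul
    (b := fun j => G j.castSucc) (fun j => bd.smG _) (r := 1 / 16) (by norm_num)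
  obtain ⟨m, m1, m2⟩ : ∃ m ≥ (1 : ℝ), 1 ≤ m * δ₀ :=
    ⟨max 1 δ₀⁻¹, le_max_left _ _, (inv_mul_cancel₀ δ0.ne').ge.trans
      (mul_le_mul_of_nonneg_right (le_max_right _ _) δ0.le)⟩
  obtain ⟨l₀, l0, hl⟩ := bd.cpt.exists_forall_le' cl (a := 0) fun x _ => bd.ok.l0 x
  obtain ⟨δ', d0, hd⟩ := bd.cpt.exists_forall_le' (f := fun x => θ / l x ^ 2)
    (continuousOn_const.div (cl.pow 2) fun x _ => (pow_pos (bd.ok.l0 x) 2).ne') (a := 0)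
    fun x _ => div_pos θ0 (pow_pos (bd.ok.l0 x) 2)
  obtain ⟨δ, d1, d2, d3⟩ : ∃ δ > (0 : ℝ), δ ≤ 1 ∧ 4 * δ ≤ δ' :=
    ⟨min 1 (δ' / 4), by positivity, min_le_left _ _, by linarith [min_le_right 1 (δ' / 4)]⟩
  obtain ⟨Γ₀, hZ⟩ := hZ ε ε0 (hε.trans (min_le_right _ _)) m m1 l₀ l0
  obtain ⟨Γ, Γ1, Γ2⟩ : ∃ Γ ≥ Γ₀, a * m ^ 2 / l₀ ^ 2 + δ ≤ Γ / 2 :=
    ⟨max Γ₀ (2 * (a * m ^ 2 / l₀ ^ 2 + δ)), le_max_left _ _,
      by linarith [le_max_right Γ₀ (2 * (a * m ^ 2 / l₀ ^ 2 + δ))]⟩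
  obtain ⟨C₁, s₁, t₁, W₁, w₁, q₁, H₁⟩ := hardy (Nat.le_add_left 1 k) hg kS nul
    (U := {x | 1 < m ^ 2 * ∑ j : Fin k, (G j.castSucc x - b₀ j) ^ 2})
    (isOpen_lt continuous_const (continuous_const.mul (continuous_finsetSum _ fun j _ =>
      ((bd.smG _).cont.sub continuous_const).pow 2))) (fun x hx => ((one_le_pow₀ m2).trans_eq
        (mul_pow _ _ 2)).trans_lt (mul_lt_mul_of_pos_left (g2 x hx) (by positivity)))
    B0 Γ 4 d1 (θ := 1 / 64) (by norm_num)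
  obtain ⟨C₂, s₂, t₂, W₂, w₂, q₂, H₂⟩ := hardy (Nat.le_add_left 1 k) hg kS nul
    (U := {x | 3 / 2 < w₁ x}) (isOpen_lt continuous_const H₁.smw.cont)
    (fun x hx => lt_of_lt_of_le (by norm_num) (H₁.inn x hx)) B0 0 L₀ d1 one_pos
  let d : Da k X := ⟨g, v, l, G, O, a, ε, θ, δ, f, h, u, vs, c', e, O₀, K₀, Λ, S, C₁, C₂, b₀, B, Γ, m,
    l₀, L₀, t₁, t₂, W₁, w₁, q₁, W₂, w₂, q₂⟩
  have H : d.Ok := ⟨bd, N, cS, sA, H₁, H₂, fun x hx => le_of_lt (s₁ hx), fun x hx => s₂ hx, B0,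
    fun x hx => (hB₁ ⟨x, hx, rfl⟩).trans b1, ε0, θ0, d1, d2, fun x hx => d3.trans (hd x hx),
    g1.le.trans (by norm_num), hl, m1, by
      have : 0 ≤ a * m ^ 2 / l₀ ^ 2 := by positivity
      show 0 ≤ Γ
      linarith⟩
  obtain ⟨L, l', E, sL, gd, T⟩ : ∃ L l' E, Smooth L ∧ d.Gd L ∧
      d.Tr L (C + 1) (min c (1 / 64) / 2) l' E := by
    rcases (d.A \ d.S).eq_empty_or_nonempty with q | q
    · exact ⟨_, _, _, cd_const, H.empty (sdiff_eq_empty.1 q) _ _⟩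
    obtain ⟨Z, _, ι, r1, r2, r3⟩ := reg q
    have R : d.Reg ι := ⟨r1, fun Q hQ z => (r2 Q hQ z).trans
      (mul_le_mul_of_nonneg_right b2 (gn_nonneg _ _ _)), r3⟩
    obtain ⟨L, sL, zh, gd⟩ := za k X d Z ι H R
    obtain ⟨γ, β, l', E, o⟩ := hZ Γ Γ1 Z _ _ _ _ _ _ _ _ _ zh
    rw [show a - 2 * θ - θ = a - 3 * θ by ring] at o
    obtain ⟨l'', E', T⟩ := zb k X d Z ι L C _ γ β l' E H R sL zh c2 (min_le_right _ _)
      ⟨o.rch, o.sml, o.l0, o.smE, o.off, o.bd, fun z p r => (min_le_left _ _).trans (o.pos z p r),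
        o.par⟩
    exact ⟨L, l'', E', sL, gd, T⟩
  obtain ⟨B', P⟩ := H.plat h₁ sL gd T (by linarith) c2 (min_le_right _ _)
    (show 2 * θ ≤ a by linarith) l0 (zero_lt_one.trans_le L1) Γ2
    (A := fun i j y => vg g (fun j y => -pd j f y) (u i) j y - pd j (lg W₁ W₂) y)
    (fun i => (cc_vg hg F.smf.cc_pd.neg (F.smu i)).sub (Smooth.cc_pd (CD.add
      (CD.mul cd_const (CD.log H₁.smW fun x => (zero_lt_one.trans_le (H₁.W1 x)).ne'))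
      (CD.mul cd_const (CD.log H₂.smW fun x => (zero_lt_one.trans_le (H₂.W1 x)).ne')))))
    (fun T => by
      filter_upwards [act B b0 S C₁ C₂ Γ δ _ _ _ _ _ _ W₁ w₁ q₁ W₂ w₂ q₂ d1 H₁ H₂ T, F.cf T] with
        i p r x hx
      refine le_trans (add_le_add_left ?_ _) (p x hx)
      have := d3.trans (hd x (H.k4 (r x hx)))
      show (a - 2 * θ) / l x ^ 2 + _ ≤ _
      rw [show a - 2 * θ = a - θ - θ by ring, sub_div]
      exact add_le_add_left (by linarith) _)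
    fun S₁ => (mx δ d1 S₁).imp fun S₂ r => ⟨r.1, r.2 _ X⟩
  obtain ⟨ρ, ρ0, hρ⟩ : ∃ ρ > (0 : ℝ), D * (|B'| + 1) ^ 2 ≤ ε * ρ :=
    ⟨|D| * (|B'| + 1) ^ 2 / ε + 1, by positivity, by
      rw [mul_add, mul_div_cancel₀ _ ε0.ne']
      nlinarith [le_abs_self D, sq_nonneg (|B'| + 1)]⟩
  obtain ⟨i, ⟨⟨g', v', r, b, p⟩, o⟩, n⟩ := (((P (3 * ρ)).and (N.out (3 * ρ))).and (N.inn 0)).exists
  obtain ⟨l₂, G₂, q⟩ := fin _ k X g g' v v' l l' (u i) G E O a (a - 4 * θ) (C + 1) _ ε B' ρ bd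
    (by linarith) (by linarith) (by linarith) (by linarith [min_le_right c (1 / 64)]) r T.sml T.smE
    (F.smu i) b ρ0 hρ o (fun x a b => by simpa using n x a b) p
  exact ⟨g', v', l₂, G₂, q.mono (by linarith)⟩

end Vale.Agent.P210E
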