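import Vale.Agent.P210E.Chain
import Vale.Agent.P210X.Sta2

/-!
# P210E: the induction step from the neck, the plateau and the new map
-/

open Filter Topology Set
open scoped ContDiff
open Vale.Agent.P366M Vale.Agent.P210G Vale.Agent.P210U
open Vale.Agent.P210X (PLAT)

noncomputable section

namespace Vale.Agent.P210E

/-- **STEP** -/
theorem step_of {k : ℕ} (h₁ : NECK (k + 2) (k + 1)) (h₂ : PLAT k) (h₃ : FIN) : BL (k + 1) := by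
  obtain ⟨C, C1, c, c0, c1, h₂⟩ := h₂
  obtain ⟨D, h₃⟩ := h₃
  refine ⟨2 * C, by linarith, c, c0, fun a a0 η η0 => ?_⟩
  obtain ⟨θ, θ0, θ1, θ2⟩ : ∃ θ > (0 : ℝ), 2 * θ ≤ η ∧ 3 * θ ≤ a :=
    ⟨min η a / 3, by positivity, by linarith [min_le_left η a, lt_min η0 a0],
      by linarith [min_le_right η a]⟩
  obtain ⟨ε₁, e1, h₁⟩ := h₁ θ θ0
  obtain ⟨ε₂, e2, h₂⟩ := h₂ (a - θ) (by linarith) θ θ0 (by linarith)
  refine ⟨min ε₁ ε₂, lt_min e1 e2, fun ε ε0 hε M _ g v l G O bd => ?_⟩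
  obtain ⟨f, h, u, vs, c', e, O₀, K₀, Λ, N⟩ := h₁ a ε (hε.trans (min_le_left _ _)) M g v l G O bd
  obtain ⟨l', E, B, s1, s2, H⟩ := h₂ ε ε0 (hε.trans (min_le_right _ _)) M g v l G O a f h u vs c' e
    O₀ K₀ Λ bd (by linarith) N
  obtain ⟨ρ, ρ0, hρ⟩ : ∃ ρ > (0 : ℝ), D * (|B| + 1) ^ 2 ≤ ε * ρ :=
    ⟨|D| * (|B| + 1) ^ 2 / ε + 1, by positivity, by
      rw [mul_add, mul_div_cancel₀ _ ε0.ne']
      nlinarith [le_abs_self D, sq_nonneg (|B| + 1)]⟩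
  obtain ⟨i, ⟨⟨g', v', r, b, p⟩, o⟩, n⟩ := (((H (3 * ρ)).and (N.out (3 * ρ))).and (N.inn 0)).exists
  obtain ⟨l₂, G₂, q⟩ := h₃ _ k M g g' v v' l l' (u i) G E O a (a - θ - θ) C c ε B ρ bd (by linarith)
    (by linarith) C1 c1 r s1 s2 (N.vf.smu i) b ρ0 hρ o (fun x a b => by simpa using n x a b) p
  exact ⟨g', v', l₂, G₂, q.mono (by linarith)⟩

/-- the induction -/
theorem bl_of (h₀ : BL 0) (h : ∀ k, BL k → BL (k + 1)) (k : ℕ) : BL k :=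
  Nat.rec h₀ h k

end Vale.Agent.P210E
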